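import Vale.Agent.N352.V6.Hl
import Vale.Agent.N352.V5.Tx

/-!
# N352, block V6: the theorem
-/

set_option linter.all false

open Filter Topology

namespace Vale.Agent.N352.H

open P352.GF F P352R
open UniformSpace (Completion)

noncomputable section

universe u

section dn

variable {H : Type*} [NormedAddCommGroup H] [InnerProductSpace ℂ H] [CompleteSpace H]
  {K : Dh.Frame H} {S : Dh.Theory K}

/-- the hypotheses on the domain -/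
theorem hyd_dn {T} (h1 : Dh.Stress S T) (h2 : Dh.PGen S T) (h3 : Dh.IVac K) (h4 : Dh.Cvr S)
    (h5 : ∀ m n, Dh.Scl S (T m n)) (eb : Dh.EBd S) (h7 : Dh.Rgl S T) :
    ∃ Q G T' Γ, ∃ R : Rl S Q S.dom.subtypeₗᵢ G,
    (iso _ R.dr).conjStarAlgEquiv Γ = K.Γ ∧
      (∀ m n, Eqv S.dom.subtypeₗᵢ (T m n) (T' m n)) ∧ V6.Hw Q G T' Γ := by
  obtain ⟨Q, G, R0⟩ := ex_rl S
  have R := th_rl R0.toLk
  choose T' a x b using fun m n => R.rep (h1.1 m n).1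
  obtain ⟨Γ, g⟩ := p_sur (iso _ R.dr).conjStarAlgEquiv K.Γ
  have c := iso_coe _ R.dr
  have d := R.dd1 h4
  have n : ∃ N', Dn.Rgl (th R0.toLk) G T' Γ N' := by
    rcases h7 with ⟨N, p, q⟩ | ⟨p, q⟩ | ⟨P, p, q⟩
    · obtain ⟨N', n⟩ := ex_dn (iso _ R.dr) N
      exact ⟨N', .net ⟨Z.net.1 ((R.net c n g).1 p), q.imp (fun k => Z.aff.1 ((R.aff c n).1 k))
        fun k => Z.rel.1 ((R.rel c n g).1 k)⟩⟩
    · exact ⟨E.Mn.N1 _, .energy ⟨(R.ebd d).1 p, q.imp (R.fbt d x).1 (R.sl c x).1⟩⟩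
    have k : Lk K P.dom S.dom.subtypeₗᵢ Q.vac G Q.U := by
      have := R0.toLk
      exact ⟨fun v => p.1.ge v.2, fun w m => this.2 w (p.1.le m), this.3, this.4, this.5⟩
    have r := th_rl k
    exact ⟨E.Mn.N1 _, .sub (th k) ⟨⟨rfl, rfl, fun B => Exists.imp fun A s => ⟨p.2 A s.1, s.2⟩,
      fun B => Exists.imp fun A s => ⟨⟨p.2 A s.1.1, p.1 ▸ s.1.2⟩, s.2⟩⟩, Z.gr.1 r.gr,
      .inr ((r.fin.1 p.3).imp Z.mfa.1 Z.fsl.1), q.imp r.ana.1 (And.imp (R.ebd d).1 (R.leb d r).1)⟩⟩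
  exact ⟨_, G, T', Γ, R, g, x, Z.gr.1 R.gr, R.even, (R.cg c).1 g,
    Z.stress.1 ((R.stress x).1 ⟨h1, fun m n => b m n (h1.1 m n)⟩).1, Z.pgen.1 ((R.pgen x).1 h2),
    V6.sc_iv (R.ivac c h3), R.mfa1 h4, R.cd1 h4,
    fun m n => R.scl0 (x m n) (h5 m n), (R.ebd d).1 eb, n⟩

end dn

section up

variable {H : Type u} [NormedAddCommGroup H] [InnerProductSpace ℂ H] [CompleteSpace H]
  {K : Dh.Frame H} {S : Dh.Theory K} {T : Ix → Ix → Fld H} {Q : Theory S.dom} {G T' Γ}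
  (R : Rl S Q S.dom.subtypeₗᵢ G) (g : (iso _ R.dr).conjStarAlgEquiv Γ = K.Γ)
  (x : ∀ m n, Eqv S.dom.subtypeₗᵢ (T m n) (T' m n)) (y : V6.Hw Q G T' Γ)
include R g x y

/-- **the conformal extension** -/
theorem ext11 : ∃ A, Dh.Stress S A ∧ Dh.Same S T A ∧
    ∃ (P : Dh.Theory K) (S' t : Ix → Ix → Fld H), (∀ B, S.fld B → ∃ C, P.fld C ∧ Dh.Agr S B C) ∧
      (∀ m n, Dh.Agr S (A m n) (S' m n)) ∧ (∀ v ∈ P.dom, Dh.Cyc P v) ∧ ∀ R : Dh.Theory K, R.dom = P.dom → (∀ A, P.fld A → R.fld A) →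
        Dh.Conf R S' t ∧ Dh.PGen R S' := by
  obtain ⟨s, a, b, E, _, _, P, k, G', e, t, c, d, p, z⟩ := V6.ext9 y
  obtain ⟨S', R', q, f, w, v⟩ := R.ext_up0 (iso_coe _ R.dr) g c
  choose A o i using fun m n => R.up _ (Q.bose_fld _ (a.1 m n))
  have j := fun m n => up_eqv ((iso _ R.dr).toLinearIsometry.comp k) (e (s m n))
  have d' := fun m n => P.bose_fld _ (d.1 m n)
  exact ⟨A, ((R.stress i).2 ⟨Z.st a, o⟩).1, (R.same x i).2 b, S', _, fun m n => up _ (t m n), q,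
    fun m n => w _ _ (Q.bose_fld _ (a.1 m n)) (i m n),
    R'.all.2 fun v => R'.cyc_up fun M a b => p M a b ▸ Submodule.mem_top,
    fun R a b => have ⟨_, r, x⟩ := v R a b
      have z := z _ ⟨x.1, x.2, x.3, x.4⟩ (Z.gr.1 r.gr)
      ⟨r.conf_up (iso_coe _ r.dr) j (fun _ _ => up_eqv _ _) (fun m n => x.3 _ (d' m n)) (Z.cf z.1),
        (r.pgen j).2 (Z.pgen.2 z.2)⟩⟩

/-- **the Borchers class is conformal** -/
theorem cinv1 (f : Dh.Cvr S) : ∃ R t, Dh.CInv S R T t ∧ ∃ (P : Dh.Theory K) (U : _),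
    Dh.Xtn S P ∧ (∀ v, v ∈ R.dom ↔ Dh.Cyc P v) ∧ P.dom = R.dom ∧ Dh.Conf P U t ∧
      ∀ A, P.fld A → R.fld A := by
  obtain ⟨A, a, s, P, S', t, e, g, c, z⟩ := ext11 R g x y
  obtain ⟨R, d, k, i⟩ := bor_of e fun _ _ _ _ r r' t t' s _ m => Bo.rel_loc1 e f r r' t t' s m
  have ⟨x, y⟩ := z R d i
  exact ⟨R, t, ⟨k, stress_bor x k, x.poincare y, chg s (fun m n => (a.1 m n).1) g x.same
    (fun v c => d ▸ cyc_dom e c), _, x⟩, P, S', e,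
    fun v => ⟨fun m => c v (d ▸ m), fun m => d ▸ cyc_in m⟩, d.symm, (z P rfl fun _ p => p).1, i⟩

end up

/-- theories that contain the scalars of their extensions -/
theorem conf1 {H : Type u} [NormedAddCommGroup H] [InnerProductSpace ℂ H] [CompleteSpace H]
    {K : Dh.Frame H} {S : Dh.Theory K} {T : Ix → Ix → Fld H} {Q : Theory S.dom} {G T' Γ}
    (R : Rl S Q S.dom.subtypeₗᵢ G) (g : (iso _ R.dr).conjStarAlgEquiv Γ = K.Γ)
    (x : ∀ m n, Eqv S.dom.subtypeₗᵢ (T m n) (T' m n)) (y : V6.Hw Q G T' Γ) (r : Dh.Mxq S) :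
    ∃ t, Dh.Conf S T t := by
  have c := iso_coe _ R.dr
  obtain ⟨t, a⟩ := V6.conf9 y (R.mxq_dn0 c g r)
  exact ⟨_, R.conf_up c x (fun _ _ => up_eqv _ _) (fun m n => Q.bose_fld _ (y.4.1 m n)) (Z.cf a)⟩

theorem cvr_of {H : Type*} [NormedAddCommGroup H] [InnerProductSpace ℂ H] [CompleteSpace H]
    {K : Dh.Frame H} {S : Dh.Theory K} (h : Dh.Cvt S) : Dh.Cvr S := fun A a =>
  ⟨(h A a).1, fun s hs => by
    obtain ⟨B, C, p, q, -⟩ := (h A a).2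
    obtain ⟨e, rfl⟩ : ∃ e, Real.exp e = s := ⟨_, Real.exp_log hs⟩
    exact ⟨B e, (p e).1, q e⟩⟩

end

end Vale.Agent.N352.H
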