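import Vale.Agent.N352.EP.Top
import Vale.Agent.N352.RP.Nt0

/-!
# N352, block V6: the extension, without differentiability of the dilations
-/

set_option linter.all false

open Filter Topology

namespace Vale.Agent.N352.V6

noncomputable section

universe u v

open P352.GF P352R P352R.P F
open T (Cm)
open V5 (Der0 gen0 pch_of0 pg_ext0 pg_enl0 Xn0 rs_scl max0)
open UniformSpace (Completion)

variable {D : Type u} [NormedAddCommGroup D] [InnerProductSpace ℂ D] {Q : Theory D} {G : D → D}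
  {T : Ix → Ix → Fld D} {Γ : Completion D →L[ℂ] Completion D} {h : Ok Q}

/-- the dilates of fields are linear combinations of fields -/
def Cd (Q : Theory D) : Prop := ∀ s, 0 < s → Cov Q s one 0

theorem cova (g : Gr Q G) (m : MfA Q) (l : Cd Q) (s : ℝ) (L : Ix → V) (a : V) (hs : 0 < s)
    (hL : IsLor L) : Cov Q s L a := by
  have R := P352X.Fss.G.m1_gr (Br.gr.1 g)
  exact cov_all hs hL (Lg.sur g hs hL a).denseRange (fun v =>
    (P352X.Fss.G.U_dil R hs hL a v).2.symm.trans (V5.u_split R hL a _)) (l s hs)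
    (cov_lor hL (Lg.sur g one_pos hL 0).denseRange m)

theorem rs_cd (g : Gr Q G) (e : G Q.vac = Q.vac) (l : Cd Q) : Cd (rs Q h) := fun s hs => by
  refine ⟨(Lg.sur (rs_gr (h := h) g e) hs lor1 0).denseRange, ?_⟩
  rintro C ⟨B, b, x⟩
  obtain ⟨n, c, A, p, q⟩ := (l s hs).2 B b
  refine ⟨n, c, fun i => rf Q (A i), fun i => rs_fld (p i), fun f v hf => (io Q).injective ?_⟩
  rw [rs_U hs lor1, x _ _ (t_sim hs lor1 0 hf), q f _ hf]
  simp only [map_sum, map_smul, rf_xt (p _) _ _ hf, rs_U hs lor1]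

/-- the generators of the Poincare group -/
structure Ge0 (Q : Theory D) (A : (V → V) → D → D) : Prop where
  add : ∀ r r' (c : ℝ) X X' v, IsSim r X → IsSim r' X' →
    A (fun z => X z + c • X' z) v = A X v + (c : ℂ) • A X' v
  der : Der0 Q A

theorem prep0 (g : Gr Q G) (e : G Q.vac = Q.vac) (m : MfA Q) (l : Cd Q) :
    ∃ (h : Ok Q) (A : _), Ge0 (rs Q h) A :=
  have h := ok_cov (cova g m l)
  have ⟨A, a, b⟩ := gen0 (P352X.Fss.G.m1_gr (Br.gr.1 (rs_gr (h := h) g e))) rs_cy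
    (Br.mfa.1 (rs_mfa m))
  ⟨h, A, a, b⟩

theorem Ge0.gn1 {A} (a : Ge0 Q A) : EP.Gn1 Q A := fun s L y X v k L0 a0 p d => by
  subst k
  exact a.der L y X v L0 a0 (fun e => (p e).2) d

/-- the context -/
def cx (g : Gr Q G) (e : G Q.vac = Q.vac) (x : ∀ v : D, Γ v = (G v : D)) {A} (a : Ge0 Q A) :
    EP.Cf D := ⟨Q, G, A, Γ, Br.gr.1 g, e, a.add, a.gn1, x⟩

theorem pgx0 (g : Gr Q G) (e : G Q.vac = Q.vac) (x : ∀ v : D, Γ v = (G v : D)) (v : N352.cy Q) :
    pg Q Γ v = (rg Q G v : N352.cy Q) := (je Q).injective (by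
  rw [je_pg, je_coe, je_coe, x]
  exact congrArg _ (rg_coe g e v).symm)

section en

variable {A0} (g : Ge0 (rs Q h) A0)
include g

theorem der1 (m : Ix) (v : N352.cy Q) : HasDerivAt
    (fun t : ℝ => (rs Q h).U 1 one (bas m t) v) (Df.Dv (rs Q h) m v) 0 := by
  have d := g.der (fun _ => one) (fun t => bas m t) (fun _ => bas m 1) v rfl
    (by funext n; simp [bas]) (fun _ => lor1) fun n x => by
      simp only [sim, bas]
      split_ifs
      · exact (hasDerivAt_id _).add_const _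
      · exact hasDerivAt_const _ _
  exact d.differentiableAt.hasDerivAt

theorem rs_der (m : Ix) (v : N352.cy Q) : HasDerivAt (fun t : ℝ => Q.U 1 one (bas m t) (io Q v))
    (io Q (Df.Dv (rs Q h) m v)) 0 := by
  have := ((io Q).toContinuousLinearMap.restrictScalars ℝ).hasFDerivAt.comp_hasDerivAt (0 : ℝ)
    (der1 g m v)
  exact this.congr_of_eventuallyEq (.of_forall fun t => (rs_U (h := h) one_pos lor1 _ v).symm)

theorem rs_dv (m : Ix) (v : N352.cy Q) : io Q (Df.Dv (rs Q h) m v) = Dn.Dv Q m (io Q v) :=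
  (rs_der g m v).deriv.symm

theorem rs_en (k : ℕ) (v : N352.cy Q) : Df.en (rs Q h) k v = Dn.en Q k (io Q v) := by
  induction k generalizing v with
  | zero => rfl
  | succ k e =>
    show Df.en _ k v + ∑ m, Df.en _ k (Df.Dv _ m v) = Dn.en Q k _ + ∑ m, Dn.en Q k (Dn.Dv Q m _)
    simp only [e, rs_dv g]

theorem rs_ebd (e : Dn.EBd Q) : Df.EBd (rs Q h) := by
  rintro C ⟨B, b, x⟩
  refine (e B b).imp fun k p f hf => (p f hf).imp fun c q v => ?_
  rw [rs_en g, ← (io Q).norm_map, x f v hf.1]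
  exact q _ v.2

theorem rs_fbt (b : ∀ m n, Q.fld (T m n)) (e : Dn.FBT Q T) :
    Di.FBT (rs Q h) fun m n => rf Q (T m n) := fun m n f hf => (e m n f hf).imp fun c q v => by
  rw [← (io Q).inner_map_map, ← (io Q).inner_map_map v, rs_dv g, rf_xt (b m n) f v hf.1,
    ← (io Q).norm_map]
  exact q _ v.2

theorem sb_leb {R : Theory D} {n : IsEnl R Q} (a : Dn.LEB R Q) : P352R.G.LEB (sb n h) := by
  rintro _ f ⟨B, b, rfl⟩ hf
  refine (a B f b hf).imp fun c p v => ?_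
  rw [← (io Q).norm_map, ← (io Q).norm_map v, ← (io Q).norm_map (P352R.G.Dv _ _ _),
    cl_xt (n.fld _ b) _ _ hf.1, show io Q (P352R.G.Dv (sb n h) o v) = _ from rs_dv g o v]
  exact p _ v.2

end en

theorem sc_iv (k : Dn.IVac Q) (h : Ok Q) (A) (_ : Ge0 (rs Q h) A) : Dn.IVac (rs Q h) :=
  (rs_rst (h := h)).ivac k

variable (Q G T Γ) in
/-- the hypotheses -/
structure Hw : Prop where
  grading : Dn.Gr Q G
  even : G Q.vac = Q.vac
  ext : ∀ v : D, Γ v = (G v : D)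
  stress : Dn.Stress Q T
  poincare : Dn.PGen Q T
  scale : ∀ (h : Ok Q) A, Ge0 (rs Q h) A → Dn.IVac (rs Q h)
  spin : MfA Q
  cd : Cd Q
  scl : ∀ m n, ∃ F B, Scl Q (T m n) F B
  ebd : Dn.EBd Q
  reg : ∃ N, Dn.Rgl Q G T Γ N

variable (H : Hw Q G T Γ)
include H

theorem Hw.st0 : Stress0 Q T := st0_of (gr.1 H.grading) H.stress H.poincare

theorem Hw.sect : Sect (rs Q h) Q (LinearIsometry.id.comp (io Q)) :=
  rs_sect ⟨rfl, fun _ _ _ _ _ _ => rfl, cova (gr.1 H.grading) H.spin H.cd, fun B C p q =>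
    ⟨B, C, p, q, fun _ _ _ => rfl, fun _ _ _ => rfl⟩⟩

/-- the context on the generated domain -/
def Hw.c {A} (a : Ge0 (rs Q h) A) : EP.Cf (N352.cy Q) :=
  cx (rs_gr (gr.1 H.grading) H.even) (rs_even (gr.1 H.grading) H.even)
    (pgx0 (gr.1 H.grading) H.even H.ext) a

theorem Hw.hb {A} (a : Ge0 (rs Q h) A) : EP.Tp.Hb (H.c a) fun m n => rf Q (T m n) := by
  have g := gr.1 H.grading
  have g1 := rs_gr (h := h) g H.even
  have t := fun m n => Q.bose_fld _ (H.stress.bose m n)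
  have m := rs_mfa (h := h) H.spin
  have s := rs_st0 (h := h) H.st0
  refine ⟨s, pch_of0 g1 a.der m s.bose (rs_pgen (h := h) t H.poincare),
    H.scale h A a, cova g1 m (rs_cd (h := h) g H.even H.cd), fun m n =>
      have ⟨F, B, k⟩ := H.scl m n; ⟨F, _, rs_scl (h := h) (H.stress.bose m n) k⟩,
    rs_ebd a H.ebd, ?_⟩
  obtain ⟨N, n | ⟨-, r⟩ | ⟨R, n, g', f, r⟩⟩ := H.reg
  · exact .inr (.inr (RP.net0 (H.c a) m (rs_cy (h := h)) ((rs_rst (h := h)).net
      (rg_coe g H.even) n.1) ((rs_rst (h := h)).rel (n.2.elim (rel_of_aff g n.1) id))))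
  · exact r.imp (rs_fbt a t) fun r => .inl (rs_sl (h := h) t H.stress.herm r)
  exact .inr (.inr (RP.sub0 (H.c a) m (rs_cy (h := h)) (sb_enl (n := enl.1 n) (h := h))
    (sb_gr g H.even (gr.1 g')) (sb_flds f) (r.imp (fun r => ⟨rs_cy (h := h), sb_ana r⟩) fun r =>
      ⟨Bg.ebd.1 (rs_ebd a r.1), sb_leb a r.2⟩)))

theorem Hw.kit {A} (a : Ge0 (rs Q h) A) :
    (∃ S S', (rs Q h).IsStress S ∧ PCh (rs Q h) S A ∧ Q.IsStress S' ∧ Dn.Same Q T S' ∧
      (∀ m n, Xt (LinearIsometry.id.comp (io Q)) (S m n) (S' m n)) ∧ Xn0 (rs Q h) (pg Q Γ) S) ∧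
      (Max (rs Q h) (pg Q Γ) (E.Mn.N1 _) Q (LinearIsometry.id.comp (io Q)) → ∃ t, Cm Q G T t) :=
  EP.Tp.kit0 (H.c a) (H.hb a) (rs_mfa (h := h) H.spin) (H.sect (h := h)) (gr.1 H.grading) H.st0
    H.poincare fun m n => rf_xt (Q.bose_fld _ (H.stress.bose m n))

open Gz (ext_congr conf_congr) in
/-- **the local extension** -/
theorem ext9 : ∃ S, Q.IsStress S ∧ Dn.Same Q T S ∧
    ∃ (E : Type u) (_ : NormedAddCommGroup E) (_ : InnerProductSpace ℂ E) (P : Theory E)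
      (k : E →ₗᵢ[ℂ] Completion D) (G' : E → E) (e : Fld D → Fld E) (t : Ix → Ix → Fld E),
      Dn.Ext Q Γ P k G' e ∧ Dn.Stress P (fun m n => e (S m n)) ∧ GI.Cy P ∧
        ∀ R, Dn.IsEnl P R → Dn.Gr R G' →
          Dk.Cnf R G' (fun m n => e (S m n)) t ∧ Dn.PGen R fun m n => e (S m n) := by
  have g := gr.1 H.grading
  obtain ⟨h, A, a⟩ := prep0 g H.even H.spin H.cd
  obtain ⟨⟨S, S', h1, h2, b, c, h5, M, E, P, G1, e, L, y, ⟨gn, q⟩, s', sc, r⟩, -⟩ := H.kit a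
  have s := fun m n => Q.bose_fld _ (b.bose m n)
  have u := (rs_rst (h := h)).ext (Γ := Γ) (fun _ => rf_xt) y
  have cg := fun m n f v (hf : IsTest f) => ext_congr y (rs_fld (h := h) (s m n))
    ((rs Q h).bose_fld _ (h1.bose m n)) (fun f v hf => (io Q).injective
      ((rf_xt (s m n) f v hf).trans (h5 m n f v hf).symm)) hf v
  obtain ⟨A', -, a'⟩ := gen0 (P352X.Fss.G.m1_gr (Br.gr.1 y.toGr)) (F.cy.1 gn.1) q
  have pg := K.pgen_congr cg (pg_ext0 y (rs_cy (h := h)) a.der a' h1.bose h2 gn sc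
    (K.cnf y.toGr (r P ⟨rfl, rfl, fun _ h => h, fun _ h => h⟩ y.toGr)).toConf)
  have bo := fun m n => u.bos _ (b.bose m n)
  have pc' := pch_of0 y.toGr a' (Br.mfa.2 q) bo pg
  exact ⟨S', b, c, E, _, _, P, _, G1, _, _, u, K.stress_congr s' bo cg, F.cy.1 gn.1,
    fun R u w => have r := r R (enl.1 u) (gr.1 w)
      (fun x => ⟨x, pg_enl0 a' pc' bo u x.toConf⟩) (K.cnf (gr.1 w) ⟨conf_congr cg r.1, r.2⟩)⟩

/-- **theories that contain the scalars of their extensions** -/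
theorem conf9 (x : Dn.Max Q Γ Q .id) : ∃ t, Dk.Cnf Q G T t := by
  have g := gr.1 H.grading
  obtain ⟨h, A, a⟩ := prep0 g H.even H.spin H.cd
  exact ((H.kit a).2 (max0 x)).imp fun _ => K.cnf g

end

end Vale.Agent.N352.V6
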