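import Vale.Agent.N352.V6.Thm
import Vale.Agent.N352.RP.Vi
import Vale.Agent.N352.DefX

/-!
# N352, block V6: the theorem, without differentiability of the dilations
-/

set_option linter.all false

namespace Vale.Agent.N352

open P352.GF F P352R P352R.P
open UniformSpace (Completion)

universe u

theorem V6.sc_vir {D : Type u} [NormedAddCommGroup D] [InnerProductSpace ℂ D] {Q : Theory D}
    {G : D → D} {T : Ix → Ix → Fld D} {Γ : Completion D →L[ℂ] Completion D} (g : Dn.Gr Q G)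
    (e : G Q.vac = Q.vac) (x : ∀ v : D, Γ v = (G v : D)) (s : Dn.Stress Q T) (p : Dn.PGen Q T)
    (m : MfA Q) (l : V6.Cd Q) (eb : Dn.EBd Q) {J} (j : Dn.Vir Q T J) (h : Ok Q) (A)
    (a : V6.Ge0 (rs Q h) A) : Dn.IVac (rs Q h) := by
  have k := gr.1 g
  have g1 := rs_gr (h := h) k e
  have t := fun m n => Q.bose_fld _ (s.bose m n)
  have m := rs_mfa (h := h) m
  have s' := rs_st0 (h := h) (st0_of k s p)
  exact U.Vp.ivac0 (V6.cx g1 (rs_even k e) (V6.pgx0 k e x) a)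
    (fun s y hs => V6.cova g1 m (V6.rs_cd (h := h) k e l) s _ y hs lor1) (V6.rs_ebd a eb) s'.bose
    (V5.pch_of0 g1 a.der m s'.bose (rs_pgen (h := h) t p)) (rs_vir (h := h) t j)

namespace H

variable {H : Type u} [NormedAddCommGroup H] [InnerProductSpace ℂ H] [CompleteSpace H]
  {K : Dh.Frame H} {S : Dh.Theory K} {T : Ix → Ix → Fld H}

/-- the hypotheses on the domain -/
theorem hyd_dv (h1 : Dh.Stress S T) (h2 : Dh.PGen S T) (h3 : (∃ J, Dh.Vir S T J) ∨ Dh.IVac K)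
    (h4 : Dh.Cvr S) (h5 : ∀ m n, Dh.Scl S (T m n)) (eb : Dh.EBd S) (h7 : Dh.Rgl S T) :
    ∃ Q G T' Γ, ∃ R : Rl S Q S.dom.subtypeₗᵢ G,
    (iso _ R.dr).conjStarAlgEquiv Γ = K.Γ ∧
      (∀ m n, Eqv S.dom.subtypeₗᵢ (T m n) (T' m n)) ∧ V6.Hw Q G T' Γ := by
  obtain ⟨Q, G, R0⟩ := ex_rl S
  have R := th_rl R0.toLk
  choose T' a x b using fun m n => R.rep (h1.1 m n).1
  obtain ⟨Γ, g⟩ := p_sur (iso _ R.dr).conjStarAlgEquiv K.Γ
  have c := iso_coe _ R.dr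
  have d := R.dd1 h4
  have n : ∃ N', Dn.Rgl (th R0.toLk) G T' Γ N' := by
    rcases h7 with ⟨N, p, q⟩ | ⟨p, q⟩ | ⟨P, p, q⟩
    · obtain ⟨N', n⟩ := ex_dn (iso _ R.dr) N
      exact ⟨N', .net ⟨Z.net.1 ((R.net c n g).1 p), q.imp (fun k => Z.aff.1 ((R.aff c n).1 k))
        fun k => Z.rel.1 ((R.rel c n g).1 k)⟩⟩
    · exact ⟨E.Mn.N1 _, .energy ⟨(R.ebd d).1 p, q.imp (R.fbt d x).1 (R.sl c x).1⟩⟩
    have k : Lk K P.dom S.dom.subtypeₗᵢ Q.vac G Q.U := by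
      have := R0.toLk
      exact ⟨fun v => p.1.ge v.2, fun w m => this.2 w (p.1.le m), this.3, this.4, this.5⟩
    have r := th_rl k
    exact ⟨E.Mn.N1 _, .sub (th k) ⟨⟨rfl, rfl, fun B => Exists.imp fun A s => ⟨p.2 A s.1, s.2⟩,
      fun B => Exists.imp fun A s => ⟨⟨p.2 A s.1.1, p.1 ▸ s.1.2⟩, s.2⟩⟩, Z.gr.1 r.gr,
      .inr ((r.fin.1 p.3).imp Z.mfa.1 Z.fsl.1), q.imp r.ana.1 (And.imp (R.ebd d).1 (R.leb d r).1)⟩⟩
  have s := Z.stress.1 ((R.stress x).1 ⟨h1, fun m n => b m n (h1.1 m n)⟩).1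
  have p := Z.pgen.1 ((R.pgen x).1 h2)
  refine ⟨_, G, T', Γ, R, g, x, Z.gr.1 R.gr, R.even, (R.cg c).1 g, s, p, h3.elim (fun ⟨J, v⟩ => ?_)
    fun k => V6.sc_iv (R.ivac c k), R.mfa1 h4, R.cd1 h4,
    fun m n => R.scl0 (x m n) (h5 m n), (R.ebd d).1 eb, n⟩
  choose J' a' y b' using fun m => R.rep (v.1 m).1
  exact V6.sc_vir (Z.gr.1 R.gr) R.even ((R.cg c).1 g) s p (R.mfa1 h4) (R.cd1 h4) ((R.ebd d).1 eb)
    (Z.vir.1 ((R.vir x y).1 ⟨v, fun m => b' m (v.1 m)⟩).1)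

variable (H) in
/-- **the theorem** -/
theorem thy : Dh.Thy H where
  inv K S T h r := by
    by_cases f : Dh.Fin' S ∨ Dh.Cnt S
    · exact (thx H).inv K S T ⟨h.1, h.2, h.3, .inl f⟩ r
    obtain ⟨e, b, c⟩ := h.4.resolve_left f
    obtain ⟨_, _, _, _, R, g, x, y⟩ := hyd_dv h.1 h.2 (h.3.imp_right fun k => k.elim id (uni K))
      b c e r
    obtain ⟨R, t, a, P, U, b, c, d, -, i⟩ := cinv1 R g x y b
    exact ⟨R, t, a, P, b, c, d, i, fun k => (f k).elim⟩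
  conf K S T h r := by
    by_cases f : Dh.Fin' S ∨ Dh.Cnt S
    · exact (thx H).conf K S T ⟨h.1, h.2, h.3, .inl f⟩ r
    obtain ⟨e, b, c⟩ := h.4.resolve_left f
    obtain ⟨r, m⟩ := r.resolve_right fun k => f k.1
    obtain ⟨_, _, _, _, R, g, x, y⟩ := hyd_dv h.1 h.2 (h.3.imp_right fun k => k.elim id (uni K))
      b c e r
    exact conf1 R g x y m

/-- **the hypotheses can be satisfied** -/
theorem wiv : ∃ (H : Type) (_ : NormedAddCommGroup H) (_ : InnerProductSpace ℂ H)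
    (_ : CompleteSpace H), Dh.Wiy H := by
  obtain ⟨H, _, _, _, K, Q, R, T, J, N, h, v, i, u, f, c, ⟨a, b⟩, k⟩ := wix
  exact ⟨H, _, _, _, K, Q, R, T, J, N, ⟨h.1, h.2, h.3, .inl (.inl f)⟩, v, i, u, f, c,
    ⟨cvr_of a, b⟩, k⟩

end H

end Vale.Agent.N352
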