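import Vale.Agent.N352.V6.Thm
import Vale.Agent.N352.DefY

/-!
# N352, block V6: the theorem, differentiability only for a possibly broken symmetry
-/

set_option linter.all false

namespace Vale.Agent.N352.H

open P352.GF F

universe u

variable {H : Type u} [NormedAddCommGroup H] [InnerProductSpace ℂ H] [CompleteSpace H]
  {K : Dh.Frame H} {S : Dh.Theory K} {T : Ix → Ix → Fld H}

theorem cvd : Dh.Cvd S ↔ Dh.Cvt S :=
  ⟨fun h A a => ⟨(h A a).1, have ⟨B, C, p, q, r⟩ := (h A a).2; ⟨B, C, p, q, r⟩⟩,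
    fun h A a => ⟨(h A a).1, have ⟨B, C, p, q, r⟩ := (h A a).2; ⟨B, C, p, q, r⟩⟩⟩

theorem hyz (h : Dh.Hyz S T) : Dh.Hyx S T ∨ ¬(Dh.Fin' S ∨ Dh.Cnt S) ∧ Dh.IVac K ∧ Dh.Cvr S ∧
    (∀ m n, Dh.Scl S (T m n)) ∧ Dh.EBd S := by
  by_cases f : Dh.Fin' S ∨ Dh.Cnt S
  · exact .inl ⟨h.1, h.2, h.3, .inl f⟩
  obtain ⟨a, b | b, c⟩ := h.4.resolve_left f
  exacts [.inl ⟨h.1, h.2, h.3, .inr ⟨a, cvd.1 b, c⟩⟩, .inr ⟨f, b.1.elim id (uni K), b.2, c, a⟩]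

variable (H) in
/-- **the theorem** -/
theorem thz : Dh.Thz H where
  inv K S T h r := (hyz h).elim (fun k => (thx H).inv K S T k r) fun ⟨f, a, b, c, e⟩ => by
    obtain ⟨_, _, _, _, R, g, x, y⟩ := hyd_dn h.1 h.2 a b c e r
    obtain ⟨R, t, a, P, U, b, c, d, -, i⟩ := cinv1 R g x y b
    exact ⟨R, t, a, P, b, c, d, i, fun k => (f k).elim⟩
  conf K S T h r := (hyz h).elim (fun k => (thx H).conf K S T k r) fun ⟨f, a, b, c, e⟩ => by
    obtain ⟨r, m⟩ := r.resolve_right fun k => f k.1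
    obtain ⟨_, _, _, _, R, g, x, y⟩ := hyd_dn h.1 h.2 a b c e r
    exact conf1 R g x y m

/-- **the hypotheses can be satisfied** -/
theorem wiz : ∃ (H : Type) (_ : NormedAddCommGroup H) (_ : InnerProductSpace ℂ H)
    (_ : CompleteSpace H), Dh.Wiz H := by
  obtain ⟨H, _, _, _, K, Q, R, T, J, N, h, v, i, u, f, c, ⟨a, b⟩, k⟩ := wix
  exact ⟨H, _, _, _, K, Q, R, T, J, N, ⟨h.1, h.2, h.3, .inl (.inl f)⟩, v, i, u, f, c,
    ⟨cvd.2 a, cvr_of a, b⟩, k⟩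

end Vale.Agent.N352.H
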